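import Vale.Agent.P281.H603.TGF.Spec
import Vale.Agent.P281.H597.SA.R
import Vale.Agent.P281.H349.NF.Lift

/-!
# P281, project T-GF (helper225), block F1, part (a): the restriction of a relative form to a fibre
along which the boundary is zero
-/

open Set Filter Metric MeasureTheory Vale.Agent.P281 Vale.Agent.P281.H713 Vale.Agent.P272.K
open Vale.Agent.P281.MF Vale.Agent.P281.ISO Vale.Agent.P281.H713.TZ
open Vale.Agent.P281.H64.TU (Tame RelFormT)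
open Vale.Agent.P281.H349.NF (eqI eqI_one)

open scoped Topology ContDiff Manifold ENNReal NNReal

set_option linter.unusedSectionVars false

noncomputable section

namespace Vale.Agent.P281.H225.TGF

/-- `1` is an equation of the closed set `D` near the points off `D`. -/
theorem leq_one {E : Type} [NormedAddCommGroup E] [NormedSpace ℂ E] {X : Type}
    [TopologicalSpace X] [ChartedSpace E X] {D : Set X} (hD : IsClosed D) {x : X} (hx : x ∉ D) :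
    IsLocalEq E D (fun _ => 1) x :=
  ⟨Dᶜ, hD.isOpen_compl, hx, fun _ _ => contMDiffAt_const,
    fun _ hz => ⟨fun h => absurd h hz, fun h => absurd h one_ne_zero⟩,
    fun _ hz => absurd hz.1 hz.2⟩

section
variable {n p d : ℕ} {X Y F : Type} [TopologicalSpace X] [ChartedSpace (Cm n) X]
  [IsManifold 𝓘(ℂ, Cm n) ω X] [TopologicalSpace Y] [ChartedSpace (Cm p) Y]
  [IsManifold 𝓘(ℂ, Cm p) ω Y] [TopologicalSpace F] [ChartedSpace (Cm d) F]
  [IsManifold 𝓘(ℂ, Cm d) ω F] {f : X → Y} {S : Set Y} {e₀ : Cm n ≃L[ℂ] (Cm p × Cm d)} {N : ℕ}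
  {𝒜 : Set (Set X)} {κ : Set X → ℕ} {Θ : X → ℂ} {T : Tame (Cm d) X} {Δ : Set X → ℝ} {i : F → X}
  {y : Y}

/-- **(a)** the restriction of a relative form: `Θ (i t) = b t * (jac φ t * j t) ^ N`, `b`
holomorphic, `j t = JP e₀ (d f) P` for any left inverse `P` of `d i` -/
theorem res_rel (hR : RelFormT T f S e₀ N 𝒜 κ Θ) (h𝒜 : ∀ D ∈ 𝒜, Δ D ≠ 0)
    (hκ : ∀ D, κ D ≠ 0 → Δ D ≠ 0) (hfin : {D | Δ D ≠ 0}.Finite)
    (hcl : ∀ D, Δ D ≠ 0 → IsClosed D) (hf : ∀ x, HolM (Cm n) (Cm p) f x)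
    (hi : ∀ t, HolM (Cm d) (Cm n) i t) (himm : ∀ t, Function.Injective (dM (Cm d) (Cm n) i t))
    (hiy : ∀ t, f (i t) = y) (hy : y ∉ S)
    (hsub : ∀ t, Function.Surjective (dM (Cm n) (Cm p) f (i t)))
    (hoff : ∀ t D, Δ D ≠ 0 → i t ∉ D) :
    ∃ j : F → ℂ, (∀ t, j t ≠ 0) ∧
      (∀ t (P : Cm n →L[ℂ] Cm d), (∀ v, P (dM (Cm d) (Cm n) i t v) = v) →
        j t = JP e₀ (dM (Cm n) (Cm p) f (i t)) P) ∧
      (∀ t₀, ∃ η : F → ℂ, HolV (Cm d) η t₀ ∧ η t₀ ≠ 0 ∧ ∀ᶠ t in 𝓝 t₀,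
        jac (Cm n) (chartAt (Cm n) (i t₀)) (i t) =
          η t * jac (Cm d) (chartAt (Cm d) t₀) t * j t) ∧
      ∀ t₀, ∃ b : F → ℂ, HolV (Cm d) b t₀ ∧ ∀ᶠ t in 𝓝 t₀,
        Θ (i t) = b t * (jac (Cm d) (chartAt (Cm d) t₀) t * j t) ^ N := by
  classical
  choose Q hQ using fun t => exists_left_inv (himm t)
  have hAD : ∀ t v, dM (Cm n) (Cm p) f (i t) (dM (Cm d) (Cm n) i t v) = 0 := by
    intro t v
    have h1 : (dM (Cm n) (Cm p) f (i t)).comp (dM (Cm d) (Cm n) i t) =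
        dM (Cm d) (Cm p) (fun t => f (i t)) t := by
      have := mfderiv_comp t (ContMDiffAt.mdifferentiableAt (hf (i t)) (by simp))
        (ContMDiffAt.mdifferentiableAt (hi t) (by simp))
      exact this.symm
    have h2 : (fun t => f (i t)) = fun _ => y := funext fun t' => hiy t'
    have h3 : dM (Cm d) (Cm p) (fun t => f (i t)) t = 0 := by
      rw [h2]; unfold dM; rw [mfderiv_const]; rfl
    have h4 := congrArg (fun T : Cm d →L[ℂ] Cm p => T v) (h1.trans h3)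
    exact h4
  have hJ : ∀ t, JP e₀ (dM (Cm n) (Cm p) f (i t)) (Q t) ≠ 0 := fun t =>
    MF.JP_ne_zero e₀ (hAD t) (hQ t) (hsub t)
  have hη : ∀ t₀, ∃ η : F → ℂ, HolV (Cm d) η t₀ ∧ η t₀ ≠ 0 ∧ ∀ᶠ t in 𝓝 t₀,
        jac (Cm n) (chartAt (Cm n) (i t₀)) (i t) =
          η t * jac (Cm d) (chartAt (Cm d) t₀) t * JP e₀ (dM (Cm n) (Cm p) f (i t)) (Q t) := by
    intro t₀
    obtain ⟨η, hη, hηe⟩ := H597.SA.adj_local e₀ hf hi t₀ (fun t => by rw [hiy, hiy]) (hsub t₀)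
      (himm t₀)
    have h1 : ∀ᶠ t in 𝓝 t₀, jac (Cm n) (chartAt (Cm n) (i t₀)) (i t) =
          η t * jac (Cm d) (chartAt (Cm d) t₀) t *
            JP e₀ (dM (Cm n) (Cm p) f (i t)) (Q t) := by
      filter_upwards [hηe] with t h
      exact h (Q t) (hQ t)
    refine ⟨η, hη, fun h0 => ?_, h1⟩
    have h2 := h1.self_of_nhds
    rw [h0, zero_mul, zero_mul] at h2
    exact jac_chart_ne_zero (mem_chart_source _ (i t₀)) h2
  refine ⟨fun t => JP e₀ (dM (Cm n) (Cm p) f (i t)) (Q t), hJ,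
    fun t P hP => (JP_indep e₀ (hAD t) (hQ t) hP).symm ▸ rfl, hη, fun t₀ => ?_⟩
  obtain ⟨η, hη1, -, hη3⟩ := hη t₀
  obtain ⟨H, hH, hev⟩ := hR.hol (i t₀) (i t₀) y (by rw [hiy]; exact hy) (mem_chart_source _ _)
    (by rw [hiy]; exact mem_chart_source _ _) hfin.toFinset (fun _ _ => 1)
    (fun D hD => hfin.mem_toFinset.2 (hκ D hD))
    (fun D hD => leq_one (hcl D (hfin.mem_toFinset.1 hD)) (hoff t₀ D (hfin.mem_toFinset.1 hD)))
  have hcy : jac (Cm p) (chartAt (Cm p) y) y ≠ 0 := jac_chart_ne_zero (mem_chart_source _ y)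
  refine ⟨fun t => (jac (Cm p) (chartAt (Cm p) y) y ^ N)⁻¹ * (H (i t) * η t ^ N), ?_, ?_⟩
  · exact (HolV.const _ _).mul ((HolV.comp (h := H) hH (hi t₀)).mul (hη1.pow N))
  · filter_upwards [hη3, (hi t₀).continuousAt.eventually hev] with t h1 h2
    have h3 := h2 (fun D hD => hoff t D (h𝒜 D hD)) (by simp)
    rw [hiy, Finset.prod_congr rfl (fun D _ => one_pow _), Finset.prod_const_one, mul_one, h1]
      at h3
    have h4 : jac (Cm p) (chartAt (Cm p) y) y ^ N ≠ 0 := pow_ne_zero _ hcy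
    have h5 : Θ (i t) = (jac (Cm p) (chartAt (Cm p) y) y ^ N)⁻¹ *
        (H (i t) * (η t * jac (Cm d) (chartAt (Cm d) t₀) t *
          JP e₀ (dM (Cm n) (Cm p) f (i t)) (Q t)) ^ N) := by
      rw [← h3, ← mul_assoc, inv_mul_cancel₀ h4, one_mul]
    rw [h5, mul_assoc (η t), mul_pow (η t)]
    ring

/-- a function with holomorphic local expressions is a section, the poles being off the fibre -/
theorem section_of {m : ℕ} {k : Set X → ℕ} {s : F → ℂ} (hfin : {D | k D ≠ 0}.Finite)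
    (hcl : ∀ D, k D ≠ 0 → IsClosed D) (hoff : ∀ t D, k D ≠ 0 → i t ∉ D)
    (h : ∀ t₀, ∃ b : F → ℂ, HolV (Cm d) b t₀ ∧ ∀ᶠ t in 𝓝 t₀,
      s t = b t * jac (Cm d) (chartAt (Cm d) t₀) t ^ m) :
    J.IsSection (Cm d) (eqI (n := n) i) m k s := by
  classical
  intro t₀
  obtain ⟨b, hb, hbe⟩ := h t₀
  refine ⟨hfin.toFinset, fun _ _ => 1, b, fun D hD => hfin.mem_toFinset.2 hD,
    fun D hD => eqI_one (hcl D (hfin.mem_toFinset.1 hD)) (hoff t₀ D (hfin.mem_toFinset.1 hD)), hb,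
    ?_⟩
  filter_upwards [hbe] with t ht _
  rw [Finset.prod_congr rfl (fun D _ => one_pow _), Finset.prod_const_one, mul_one, ht]
  rfl

/-- **(a)**, in the letters of `kodR`: a power of `Θ (i t) / j t ^ N` -/
theorem res_section (hR : RelFormT T f S e₀ N 𝒜 κ Θ) (h𝒜 : ∀ D ∈ 𝒜, Δ D ≠ 0)
    (hκ : ∀ D, κ D ≠ 0 → Δ D ≠ 0) (hfin : {D | Δ D ≠ 0}.Finite)
    (hcl : ∀ D, Δ D ≠ 0 → IsClosed D) (hf : ∀ x, HolM (Cm n) (Cm p) f x)
    (hi : ∀ t, HolM (Cm d) (Cm n) i t) (himm : ∀ t, Function.Injective (dM (Cm d) (Cm n) i t))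
    (hiy : ∀ t, f (i t) = y) (hy : y ∉ S)
    (hsub : ∀ t, Function.Surjective (dM (Cm n) (Cm p) f (i t)))
    (hoff : ∀ t D, Δ D ≠ 0 → i t ∉ D) :
    ∃ j : F → ℂ, (∀ t, j t ≠ 0) ∧
      (∀ t (P : Cm n →L[ℂ] Cm d), (∀ v, P (dM (Cm d) (Cm n) i t v) = v) →
        j t = JP e₀ (dM (Cm n) (Cm p) f (i t)) P) ∧
      ∀ (l : ℕ) (k : Set X → ℕ), (∀ D, k D ≠ 0 → Δ D ≠ 0) →
        J.IsSection (Cm d) (eqI (n := n) i) (N * l) k (fun t => (Θ (i t) / j t ^ N) ^ l) := by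
  obtain ⟨j, h1, h2, -, h4⟩ := res_rel hR h𝒜 hκ hfin hcl hf hi himm hiy hy hsub hoff
  refine ⟨j, h1, h2, fun l k hk => section_of (hfin.subset fun D hD => hk D hD)
    (fun D hD => hcl D (hk D hD)) (fun t D hD => hoff t D (hk D hD)) fun t₀ => ?_⟩
  obtain ⟨b, hb, hbe⟩ := h4 t₀
  refine ⟨fun t => b t ^ l, hb.pow l, ?_⟩
  filter_upwards [hbe] with t ht
  rw [ht, mul_pow (jac _ _ _), ← mul_assoc, mul_div_assoc, div_self (pow_ne_zero _ (h1 t)),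
    mul_one, mul_pow, pow_mul]

end

end Vale.Agent.P281.H225.TGF
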